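import Vale.Agent.P246.T.FM
import Vale.Agent.P246.T.PR

/-! # P223W: singular chains with coefficients in a ring -/

noncomputable section

namespace Vale.Agent.P223W25

open Set Vale.Agent.P246.T

variable (R : Type) [CommRing R] {M N L : Type} [TopologicalSpace M] [TopologicalSpace N]
  [TopologicalSpace L]

/-- chains with coefficients in `R` -/
abbrev C (n : ℕ) (M : Type) [TopologicalSpace M] : Type := C(Dl (n + 1), M) →₀ R

/-- integral chains as chains over `R` -/
def cast {α : Type} : (α →₀ ℤ) →ₗ[ℤ] (α →₀ R) :=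
  Finsupp.mapRange.linearMap (Algebra.linearMap ℤ R)

theorem cast_apply {α : Type} (c : α →₀ ℤ) (a : α) : cast R c a = (c a : R) := by
  simp [cast]

theorem cast_single {α : Type} (a : α) (m : ℤ) :
    cast R (Finsupp.single a m) = Finsupp.single a (m : R) := by
  simp [cast]

/-- extension of scalars for operators -/
def ext {α β : Type} (T : (α →₀ ℤ) →ₗ[ℤ] (β →₀ ℤ)) : (α →₀ R) →ₗ[R] (β →₀ R) :=
  Finsupp.linearCombination R fun a => cast R (T (Finsupp.single a 1))

variable {R}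

theorem ext_single {α β : Type} (T : (α →₀ ℤ) →ₗ[ℤ] (β →₀ ℤ)) (a : α) (r : R) :
    ext R T (Finsupp.single a r) = r • cast R (T (Finsupp.single a 1)) := by
  rw [ext, Finsupp.linearCombination_single]

theorem ext_cast {α β : Type} (T : (α →₀ ℤ) →ₗ[ℤ] (β →₀ ℤ)) (c : α →₀ ℤ) :
    ext R T (cast R c) = cast R (T c) := by
  induction c using Finsupp.induction_linear with
  | zero => simp only [map_zero]
  | add a b ha hb => simp only [map_add, ha, hb]
  | single a m =>
    rw [cast_single, ext_single, ← Finsupp.smul_single_one a m, map_smul, map_smul,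
      Int.cast_smul_eq_zsmul]

theorem ind {α : Type} {P : (α →₀ R) → Prop} {S : Set α} (h0 : P 0)
    (ha : ∀ a b, P a → P b → P (a + b)) (hs : ∀ (r : R) a, P a → P (r • a))
    (h1 : ∀ a ∈ S, P (cast R (Finsupp.single a 1))) {c : α →₀ R}
    (hc : c ∈ Finsupp.supported R R S) : P c := by
  rw [Finsupp.supported_eq_span_single] at hc
  induction hc using Submodule.span_induction with
  | mem x hx =>
    obtain ⟨a, ha, rfl⟩ := hx
    have := h1 a ha
    rwa [cast_single, Int.cast_one] at this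
  | zero => exact h0
  | add x y _ _ hx hy => exact ha _ _ hx hy
  | smul r x _ hx => exact hs _ _ hx

theorem lin_eq {α β : Type} {f g : (α →₀ R) →ₗ[R] (β →₀ R)}
    (h : ∀ a, f (cast R (Finsupp.single a 1)) = g (cast R (Finsupp.single a 1))) (c : α →₀ R) :
    f c = g c :=
  ind (P := fun c => f c = g c) (S := univ) (by simp) (fun a b ha hb => by simp [ha, hb])
    (fun r a ha => by simp [ha]) (fun a _ => h a) (by simp)

theorem lin_mem {α β : Type} (f : (α →₀ R) →ₗ[R] (β →₀ R)) {S : Set α}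
    {T : Submodule R (β →₀ R)} (h : ∀ a ∈ S, f (cast R (Finsupp.single a 1)) ∈ T) {c : α →₀ R}
    (hc : c ∈ Finsupp.supported R R S) : f c ∈ T :=
  ind (P := fun c => f c ∈ T) (by simp) (fun a b ha hb => by simpa using T.add_mem ha hb)
    (fun r a ha => by simpa using T.smul_mem r ha) h hc

variable (R) in
/-- the chains in the set `A` -/
def Cn (A : Set M) (n : ℕ) : Submodule R (C R n M) :=
  Finsupp.supported R R {σ : C(Dl (n + 1), M) | ∀ x, σ x ∈ A}

theorem cast_mem {A : Set M} {n : ℕ} {c : Ch n M} (h : c ∈ P246.T.Con A n) :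
    cast R c ∈ Cn R A n := by
  rw [P246.T.Con, Finsupp.mem_supported'] at h
  rw [Cn, Finsupp.mem_supported']
  intro σ hσ
  rw [cast_apply, h σ hσ, Int.cast_zero]

theorem cn_mono {A B : Set M} (h : A ⊆ B) {n : ℕ} {c : C R n M} (hc : c ∈ Cn R A n) :
    c ∈ Cn R B n := by
  refine Finsupp.supported_mono ?_ hc
  intro σ hσ x
  exact h (hσ x)

theorem cn_univ {n : ℕ} (c : C R n M) : c ∈ Cn R (univ : Set M) n := by
  rw [Cn, Finsupp.mem_supported]
  intro _ _ _
  trivial

theorem cn_inter {A B : Set M} {n : ℕ} {c : C R n M} (h : c ∈ Cn R A n) (h' : c ∈ Cn R B n) :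
    c ∈ Cn R (A ∩ B) n := by
  rw [Cn, Finsupp.mem_supported] at h h' ⊢
  exact fun σ hσ x => ⟨h hσ x, h' hσ x⟩

theorem cn_empty {n : ℕ} {c : C R n M} (h : c ∈ Cn R (∅ : Set M) n) : c = 0 := by
  rw [Cn, Finsupp.mem_supported'] at h
  ext σ
  exact h σ fun hσ => hσ stdSimplex.barycenter

/-- the boundary -/
abbrev bR (n : ℕ) : C R (n + 1) M →ₗ[R] C R n M := ext R (bd n)

/-- the image of a chain -/
abbrev pR (f : C(M, N)) (n : ℕ) : C R n M →ₗ[R] C R n N := ext R (push f n)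

theorem bR_bR (n : ℕ) (c : C R (n + 2) M) : bR n (bR (n + 1) c) = 0 :=
  lin_eq (f := bR n ∘ₗ bR (n + 1)) (g := 0) (fun a => by
    simp only [LinearMap.comp_apply, ext_cast, SD.bd_bd, map_zero, LinearMap.zero_apply]) c

theorem bR_mem {A : Set M} {n : ℕ} {c : C R (n + 1) M} (hc : c ∈ Cn R A (n + 1)) :
    bR n c ∈ Cn R A n :=
  lin_mem _ (fun σ hσ => by
    rw [ext_cast]; exact cast_mem (FM.bd_mem (SD.single_mem hσ 1))) hc

theorem pR_bR (f : C(M, N)) (n : ℕ) (c : C R (n + 1) M) :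
    bR n (pR f (n + 1) c) = pR f n (bR n c) :=
  lin_eq (f := bR n ∘ₗ pR f (n + 1)) (g := pR f n ∘ₗ bR n) (fun a => by
    simp only [LinearMap.comp_apply, ext_cast, push_bd]) c

theorem pR_mem {f : C(M, N)} {n : ℕ} {A : Set M} {A' : Set N} (h : ∀ x ∈ A, f x ∈ A')
    {c : C R n M} (hc : c ∈ Cn R A n) : pR f n c ∈ Cn R A' n :=
  lin_mem _ (fun σ hσ => by
    rw [ext_cast]; exact cast_mem (push_mem h (SD.single_mem hσ 1))) hc

theorem pR_eq (f : C(M, N)) (n : ℕ) (c : C R n M) :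
    pR f n c = Finsupp.mapDomain (fun σ => f.comp σ) c :=
  lin_eq (f := pR f n) (g := Finsupp.lmapDomain R R fun σ => f.comp σ) (fun a => by
    rw [ext_cast, push_single, cast_single, cast_single, Finsupp.lmapDomain_apply,
      Finsupp.mapDomain_single]) c

theorem pR_id (n : ℕ) (c : C R n M) : pR (ContinuousMap.id M) n c = c :=
  lin_eq (f := pR (ContinuousMap.id M) n) (g := LinearMap.id) (fun a => by
    rw [ext_cast, push_id, LinearMap.id_apply]) c

/-- the image under an injective map -/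
theorem mem_of_pR {f : C(M, N)} (hf : Function.Injective f) {n : ℕ} {A : Set N} {c : C R n M}
    (hc : pR f n c ∈ Cn R A n) : c ∈ Cn R (f ⁻¹' A) n := by
  rw [Cn, Finsupp.mem_supported'] at hc ⊢
  intro σ hσ
  have h := hc (f.comp σ) hσ
  rwa [pR_eq, Finsupp.mapDomain_apply] at h
  intro a b hab
  ext x
  exact hf (ContinuousMap.congr_fun hab x)

/-- chains in the range of an embedding -/
theorem exists_pR {f : C(M, N)} (hf : Topology.IsEmbedding f) {n : ℕ} {c : C R n N}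
    (hc : c ∈ Cn R (range f) n) : ∃ c', pR f n c' = c := by
  refine ind (P := fun c => ∃ c', pR f n c' = c) ⟨0, map_zero _⟩ ?_ ?_ ?_ hc
  · rintro _ _ ⟨a, rfl⟩ ⟨b, rfl⟩
    exact ⟨a + b, map_add _ _ _⟩
  · rintro r _ ⟨a, rfl⟩
    exact ⟨r • a, map_smul _ _ _⟩
  · intro σ hσ
    choose g hg using hσ
    have hc : Continuous g := hf.continuous_iff.2 (by
      rw [show f ∘ g = σ from funext hg]; exact σ.continuous)
    refine ⟨cast R (Finsupp.single ⟨g, hc⟩ 1), ?_⟩
    rw [ext_cast, push_single]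
    congr 2
    exact ContinuousMap.ext hg

theorem s_mem (S : SdOp) {A : Set M} {n : ℕ} {c : C R n M} (hc : c ∈ Cn R A n) :
    ext R (S.s M n) c ∈ Cn R A n :=
  lin_mem _ (fun σ hσ => by
    rw [ext_cast, SD.single_eq, ← S.s_nat]
    exact cast_mem (push_mem (A := univ) (fun x _ => hσ x) (FM.mem_univ_con _ _))) hc

theorem t_mem (S : SdOp) {A : Set M} {n : ℕ} {c : C R n M} (hc : c ∈ Cn R A n) :
    ext R (S.t M n) c ∈ Cn R A (n + 1) :=
  lin_mem _ (fun σ hσ => by
    rw [ext_cast, SD.single_eq, ← S.t_nat]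
    exact cast_mem (push_mem (A := univ) (fun x _ => hσ x) (FM.mem_univ_con _ _))) hc

theorem t_succ (S : SdOp) (n : ℕ) (c : C R (n + 1) M) :
    bR (n + 1) (ext R (S.t M (n + 1)) c) =
      c - ext R (S.s M (n + 1)) c - ext R (S.t M n) (bR n c) :=
  lin_eq (f := bR (n + 1) ∘ₗ ext R (S.t M (n + 1)))
    (g := LinearMap.id - ext R (S.s M (n + 1)) - ext R (S.t M n) ∘ₗ bR n) (fun a => by
    simp only [LinearMap.comp_apply, LinearMap.sub_apply, LinearMap.id_apply, ext_cast, S.t_succ,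
      map_sub]) c

theorem small {U V : Set M} (hU : IsOpen U) (hV : IsOpen V) {n : ℕ} {c : C R n M}
    (hc : c ∈ Cn R (U ∪ V) n) :
    ∃ S : SdOp, ext R (S.s M n) c ∈ Cn R U n ⊔ Cn R V n := by
  have key : ∃ m0 : ℕ, ∀ m, m0 ≤ m → ext R ((SD.iter m).s M n) c ∈ Cn R U n ⊔ Cn R V n := by
    refine ind (P := fun c => ∃ m0 : ℕ, ∀ m, m0 ≤ m →
      ext R ((SD.iter m).s M n) c ∈ Cn R U n ⊔ Cn R V n) ⟨0, fun m _ => by simp⟩ ?_ ?_ ?_ hc
    · rintro a b ⟨m, hm⟩ ⟨m', hm'⟩
      refine ⟨max m m', fun k hk => ?_⟩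
      rw [map_add]
      exact add_mem (hm k (le_of_max_le_left hk)) (hm' k (le_of_max_le_right hk))
    · rintro r a ⟨m, hm⟩
      exact ⟨m, fun k hk => by rw [map_smul]; exact Submodule.smul_mem _ _ (hm k hk)⟩
    · intro σ hσ
      obtain ⟨m, hm⟩ := SD.small_single (U ∪ V) U V U V hU hV
        (inter_eq_left.2 subset_union_left) (inter_eq_left.2 subset_union_right) Subset.rfl σ hσ
      refine ⟨m, fun k hk => ?_⟩
      obtain ⟨j, rfl⟩ := Nat.exists_eq_add_of_le' hk
      rw [ext_cast, SD.iter_s, Function.iterate_add_apply]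
      obtain ⟨a, ha, b, hb, hab⟩ := Submodule.mem_sup.1 (SD.sd_iter_mem hm j)
      rw [← hab, map_add]
      exact Submodule.add_mem_sup (cast_mem ha) (cast_mem hb)
  obtain ⟨m, hm⟩ := key
  exact ⟨_, hm m le_rfl⟩

/-- **Splitting** of a chain along two open sets -/
theorem split {U V : Set M} (hU : IsOpen U) (hV : IsOpen V) {n : ℕ} {e : C R (n + 1) M}
    (he : e ∈ Cn R (U ∪ V) (n + 1)) {a b : C R n M} (ha : a ∈ Cn R U n) (hb : b ∈ Cn R V n)
    (h : bR n e = a + b) : ∃ d ∈ Cn R (U ∪ V) (n + 2), ∃ u ∈ Cn R U (n + 1),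
      ∃ v ∈ Cn R V (n + 1), e = bR (n + 1) d + u + v := by
  obtain ⟨S, hS⟩ := small hU hV he
  obtain ⟨u, hu, v, hv, huv⟩ := Submodule.mem_sup.1 hS
  refine ⟨_, t_mem S he, u + ext R (S.t M n) a, add_mem hu (t_mem S ha),
    v + ext R (S.t M n) b, add_mem hv (t_mem S hb), ?_⟩
  rw [t_succ, ← huv, h, map_add]
  abel

/-- the prism operator -/
abbrev prR (H : C(I × M, N)) (n : ℕ) : C R n M →ₗ[R] C R (n + 1) N := ext R (FM.pr PR.op H n)

theorem prR_mem (H : C(I × M, N)) {A : Set M} {A' : Set N} (h : ∀ t, ∀ x ∈ A, H (t, x) ∈ A')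
    {n : ℕ} {c : C R n M} (hc : c ∈ Cn R A n) : prR H n c ∈ Cn R A' (n + 1) :=
  lin_mem _ (fun σ hσ => by
    rw [ext_cast, FM.pr_single]
    exact cast_mem (PR.pc_mem _ _ fun t x => h t _ (hσ x))) hc

theorem bR_prR (H : C(I × M, N)) (f g : C(M, N)) (hf : ∀ x, H (0, x) = f x)
    (hg : ∀ x, H (1, x) = g x) (n : ℕ) (c : C R (n + 1) M) :
    bR (n + 1) (prR H (n + 1) c) = pR g (n + 1) c - pR f (n + 1) c - prR H n (bR n c) :=
  lin_eq (f := bR (n + 1) ∘ₗ prR H (n + 1))
    (g := pR g (n + 1) - pR f (n + 1) - prR H n ∘ₗ bR n) (fun a => by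
    simp only [LinearMap.comp_apply, LinearMap.sub_apply, ext_cast,
      FM.bd_pr_succ PR.op H f g hf hg, map_sub]) c

end Vale.Agent.P223W25

end
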