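import Vale.Agent.P223W25.Fund
import Vale.Agent.P223W69.Tr

/-! # P223W: the fundamental class, in the language of the statement -/

namespace Vale.Agent.P223W25

open Vale.Agent.P223 Vale.Agent.P223W69

/-- The fundamental cycles form one homology class, which has an integral representative. -/
theorem fund_class {n : ℕ} (hn : 1 ≤ n) {M : Type} [TopologicalSpace M] [CompactSpace M]
    [T2Space M] {c : M → J.Ch n M} (hc : J.Atl c) : ∃ z0 : J.Simp (n + 1) M →₀ ℝ,
      (∀ σ, ∃ m : ℤ, z0 σ = m) ∧ J.IsFund c z0 ∧ ∀ z, J.IsFund c z ↔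
        ∃ b : J.Simp (n + 2) M →₀ ℝ, ∀ τ, z τ = z0 τ + J.bd b τ := by
  obtain ⟨m, rfl⟩ := Nat.exists_eq_add_of_le' hn
  obtain ⟨z, hz⟩ := exists_fc hc
  have e : tr (m + 1) ((tr (m + 1)).symm (cast ℝ z)) = cast ℝ z := LinearEquiv.apply_symm_apply _ _
  refine ⟨(tr (m + 1)).symm (cast ℝ z), (tr_int _).1 fun s => ⟨z s, by rw [e, cast_apply]⟩,
    (fund_iff _).2 (by rw [e]; exact hz), fun y => ?_⟩
  rw [hom_iff, e]
  exact (fund_iff y).trans (fc_iff hc hz)

end Vale.Agent.P223W25
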