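import Vale.Agent.P223.MathlibUsed
import Mathlib.LinearAlgebra.Matrix.SpecialLinearGroup
import Mathlib.LinearAlgebra.Matrix.Transvection
import Mathlib.Topology.Instances.Matrix
import Mathlib.Topology.Connected.PathConnected

/-! # P223W: matrices with positive determinant are joined to the identity -/

namespace Vale.Agent.P223W25

open Set Matrix

variable {n : ℕ}

/-- invertible matrices -/
def GLset (n : ℕ) : Set (Matrix (Fin n) (Fin n) ℝ) := {M | M.det ≠ 0}

theorem joinedIn_mul {A B C D : Matrix (Fin n) (Fin n) ℝ} (h : JoinedIn (GLset n) A B)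
    (k : JoinedIn (GLset n) C D) : JoinedIn (GLset n) (A * C) (B * D) := by
  obtain ⟨γ, hγ⟩ := h
  obtain ⟨δ, hδ⟩ := k
  refine ⟨⟨⟨fun t => γ t * δ t, γ.continuous.matrix_mul δ.continuous⟩, by simp, by simp⟩, ?_⟩
  intro t
  change (γ t * δ t).det ≠ 0
  rw [det_mul]
  exact mul_ne_zero (hγ t) (hδ t)

theorem joinedIn_transvection {i j : Fin n} (hij : i ≠ j) (c : ℝ) :
    JoinedIn (GLset n) 1 (transvection i j c) := by
  refine ⟨⟨⟨fun t : unitInterval => transvection i j ((t : ℝ) * c), ?_⟩, by simp, by simp⟩, ?_⟩
  · unfold transvection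
    refine continuous_const.add ?_
    refine continuous_matrix fun a b => ?_
    simp only [single_apply]
    split_ifs
    · fun_prop
    · fun_prop
  · intro t
    change (transvection i j ((t : ℝ) * c)).det ≠ 0
    rw [det_transvection_of_ne i j hij]
    exact one_ne_zero

theorem diag2n_eq' {i j : Fin n} (hij : i ≠ j) (c : ℝ) (hc : c ≠ 0) :
    (SpecialLinearGroup.diag2n hij c hc).1 =
      transvection j i (-1 / c) * transvection i j (c - 1) * transvection j i 1 *
        transvection i j (-(c - 1) / c) := by
  rw [SpecialLinearGroup.diag2n_coe]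
  simp only [transvection, add_mul, mul_add, one_mul, mul_one]
  simp only [single_mul_single_same, single_mul_single_of_ne _ _ _ _ hij.symm,
    single_mul_single_of_ne _ _ _ _ hij, zero_mul, add_zero]
  ext x y
  simp only [Matrix.add_apply, single_apply, diagonal_apply, one_apply]
  by_cases hxi : x = i
  · subst hxi
    by_cases hyi : y = x
    · subst hyi
      simp [hij.symm]
    · by_cases hyj : y = j
      · subst hyj
        simp only [hij, ↓reduceIte, hij.symm, and_self, add_zero, and_true, zero_add, and_false,
          neg_sub]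
        field_simp
        ring
      · simp [Ne.symm hyi, Ne.symm hyj]
  · by_cases hxj : x = j
    · subst hxj
      by_cases hyi : y = i
      · subst hyi
        simp only [hij.symm, ↓reduceIte, and_self, zero_add, hij, and_false, add_zero, and_true]
        field_simp
        ring
      · by_cases hyj : y = x
        · subst hyj
          simp only [↓reduceIte, hij.symm, hij, and_false, add_zero, and_true, and_self, zero_add,
            neg_sub]
          field_simp
          ring
        · simp [hij, Ne.symm hyi, Ne.symm hyj]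
    · simp [hxi, hxj, Ne.symm hxi, Ne.symm hxj]

theorem joinedIn_SL [Nontrivial (Fin n)] (M : SpecialLinearGroup (Fin n) ℝ) :
    JoinedIn (GLset n) 1 M.1 := by
  refine SpecialLinearGroup.diagonal_transvection_induction'
    (fun M => JoinedIn (GLset n) 1 M.1) M ?_ ?_ ?_
  · intro i j hij c hc
    rw [diag2n_eq' hij c hc]
    have := joinedIn_mul (joinedIn_mul (joinedIn_mul (joinedIn_transvection hij.symm (-1 / c))
      (joinedIn_transvection hij (c - 1))) (joinedIn_transvection hij.symm 1))
      (joinedIn_transvection hij (-(c - 1) / c))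
    simpa using this
  · intro i j hij a
    exact joinedIn_transvection hij a
  · intro A B hA hB
    have := joinedIn_mul hA hB
    rw [one_mul] at this
    exact this

theorem joinedIn_smul {M : Matrix (Fin n) (Fin n) ℝ} (hM : M ∈ GLset n) {c : ℝ} (hc : 0 < c) :
    JoinedIn (GLset n) M (c • M) := by
  refine ⟨⟨⟨fun t : unitInterval => ((1 - (t : ℝ)) + (t : ℝ) * c) • M, by fun_prop⟩,
    by simp, by simp⟩, ?_⟩
  intro t
  change (((1 - (t : ℝ)) + (t : ℝ) * c) • M).det ≠ 0
  rw [det_smul]
  refine mul_ne_zero (pow_ne_zero _ ?_) hM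
  have h1 := t.2.1
  have h2 := t.2.2
  rcases h1.eq_or_lt with h | h
  · rw [← h]; norm_num
  · have : 0 < (t : ℝ) * c := mul_pos h hc
    have : 0 ≤ 1 - (t : ℝ) := by linarith
    positivity

theorem joinedIn_pos {M : Matrix (Fin n) (Fin n) ℝ} (hM : 0 < M.det) :
    JoinedIn (GLset n) 1 M := by
  rcases Nat.lt_or_ge n 2 with hn | hn
  · interval_cases n
    · have : M = 1 := Subsingleton.elim _ _
      rw [this]
      exact JoinedIn.refl (by simp [GLset])
    · have h1 : M = M.det • (1 : Matrix (Fin 1) (Fin 1) ℝ) := by
        ext i j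
        have hi : i = 0 := Subsingleton.elim _ _
        have hj : j = 0 := Subsingleton.elim _ _
        subst hi hj
        simp
      rw [h1]
      exact joinedIn_smul (by simp [GLset]) hM
  · have : Nontrivial (Fin n) := Fin.nontrivial_iff_two_le.2 hn
    have hn0 : (n : ℝ) ≠ 0 := by positivity
    set c : ℝ := M.det ^ (1 / (n : ℝ)) with hc
    have hc0 : 0 < c := Real.rpow_pos_of_pos hM _
    have hcn : c ^ n = M.det := by
      rw [hc, ← Real.rpow_natCast, ← Real.rpow_mul hM.le, one_div_mul_cancel hn0, Real.rpow_one]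
    have hdet : (c⁻¹ • M).det = 1 := by
      rw [det_smul, Fintype.card_fin, inv_pow, hcn, inv_mul_cancel₀ hM.ne']
    have h1 := joinedIn_SL (⟨c⁻¹ • M, hdet⟩ : SpecialLinearGroup (Fin n) ℝ)
    have h2 : JoinedIn (GLset n) (c⁻¹ • M) (c • (c⁻¹ • M)) :=
      joinedIn_smul (by change _ ≠ _; rw [hdet]; exact one_ne_zero) hc0
    rw [smul_smul, mul_inv_cancel₀ hc0.ne', one_smul] at h2
    exact h1.trans h2

end Vale.Agent.P223W25
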