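import Vale.Agent.P223W25.Hom
import Vale.Agent.P223W25.GL
import Vale.Agent.P223.X.DefM

/-! # P223W: positively oriented affine simplices define the same local class -/

noncomputable section

namespace Vale.Agent.P223W25

open Set Topology Filter Matrix Vale.Agent.P246.T Vale.Agent.P223.J

variable {R : Type} [CommRing R] {M : Type} [TopologicalSpace M] {m : ℕ}

variable (R) in
/-- the simplices `s` and `s'` have the same class in the local homology at `p` -/
def Rel (p : M) (s s' : C(Dl (m + 2), M)) : Prop :=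
  Nl {p}ᶜ (m + 1) (cast R (Finsupp.single s 1) - cast R (Finsupp.single s' 1))

theorem Rel.symm {p : M} {s s' : C(Dl (m + 2), M)} (h : Rel R p s s') : Rel R p s' s := by
  have := Nl.neg h
  rwa [neg_sub] at this

theorem Rel.trans {p : M} {s s' s'' : C(Dl (m + 2), M)} (h : Rel R p s s') (h' : Rel R p s' s'') :
    Rel R p s s'' := by
  have := Nl.add h h'
  rwa [sub_add_sub_cancel] at this

theorem rel_htp {p : M} (K : Hm (m + 2) M) (h : ∀ t x, (∃ i, x i = 0) → K (t, x) ≠ p) :
    Rel R p (K.at 0) (K.at 1) := by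
  refine ⟨-cast R (PR.pc (m + 2) K), ?_⟩
  rw [map_neg, ext_cast, PR.bd_pc, map_sub, map_sub]
  have : cast R (∑ i : Fin (m + 2), ((-1 : ℤ) ^ (i : ℕ)) • PR.pc (m + 1) (K.fc i)) ∈
      Cn R ({p}ᶜ : Set M) (m + 1) :=
    cast_mem (Submodule.sum_mem _ fun i _ => Submodule.smul_mem _ _
      (PR.pc_mem _ _ fun t x => h t _ ⟨i, FM.face_self i x⟩))
  convert neg_mem this using 1
  abel

theorem rel_chart (e : P223.J.Ch (m + 1) M) {p : M} (F : I × Dl (m + 2) → E (m + 1))
    (hF : Continuous F) (hT : ∀ q, F q ∈ e.target) (hb : ∀ t x, (∃ i, x i = 0) → F (t, x) ≠ e p)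
    {s : C(Dl (m + 2), M)} (h0 : ∀ x, s x = e.symm (F (0, x))) :
    ∃ s' : C(Dl (m + 2), M), (∀ x, s' x = e.symm (F (1, x))) ∧ Rel R p s s' := by
  let K : Hm (m + 2) M := ⟨fun q => e.symm (F q), e.continuousOn_symm.comp_continuous hF hT⟩
  refine ⟨K.at 1, fun _ => rfl, ?_⟩
  rw [show s = K.at 0 from ContinuousMap.ext h0]
  refine rel_htp K fun t x hx h => hb t x hx ?_
  rw [← h]
  exact (e.right_inv (hT _)).symm

/-- the last coordinates of `t - τ` -/
def td (τ : Fin (m + 2) → ℝ) (t : Dl (m + 2)) : E (m + 1) := fun i => t i.succ - τ i.succ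

theorem td_ne {τ : Fin (m + 2) → ℝ} (h1 : ∑ i, τ i = 1) (h2 : ∀ i, 0 < τ i) {t : Dl (m + 2)}
    (ht : ∃ i, t i = 0) : td τ t ≠ 0 := by
  intro h
  have h3 : ∀ i : Fin (m + 1), t i.succ = τ i.succ := fun i => sub_eq_zero.1 (congrFun h i)
  have h4 : ∑ i, t i = 1 := t.2.2
  rw [Fin.sum_univ_succ] at h1 h4
  rw [Finset.sum_congr rfl fun i _ => h3 i] at h4
  obtain ⟨i, hi⟩ := ht
  have := h2 i
  induction i using Fin.cases with
  | zero => linarith
  | succ i => rw [← h3, hi] at this; exact lt_irrefl _ this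

theorem vm_ne {A : Matrix (Fin (m + 1)) (Fin (m + 1)) ℝ} (hA : A.det ≠ 0) {u : E (m + 1)}
    (hu : u ≠ 0) : u ᵥ* A ≠ 0 := fun h => hu (eq_zero_of_vecMul_eq_zero hA h)

theorem cont_co (i : Fin (m + 2)) : Continuous fun t : Dl (m + 2) => t i :=
  (continuous_apply i).comp continuous_subtype_val

theorem cont_td {X : Type} [TopologicalSpace X] {τ : X → Fin (m + 2) → ℝ} {t : X → Dl (m + 2)}
    (h : Continuous τ) (ht : Continuous t) : Continuous fun x => td (τ x) (t x) :=
  continuous_pi fun i => ((cont_co i.succ).comp ht).sub ((continuous_apply _).comp h)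

theorem ev_small {ι : Type} [TopologicalSpace ι] [CompactSpace ι] {v : ι → E (m + 1)}
    (hv : Continuous v) {x : E (m + 1)} {W : Set (E (m + 1))} (hW : W ∈ 𝓝 x) :
    ∀ᶠ ε in 𝓝[>] (0 : ℝ), ∀ i, x + ε • v i ∈ W := by
  refine mem_nhdsWithin_of_mem_nhds ?_
  have := isCompact_univ.eventually_forall_of_forall_eventually (x₀ := (0 : ℝ))
    (P := fun ε i => x + ε • v i ∈ W) fun i _ => by
      have hc : Continuous fun q : ℝ × ι => x + q.1 • v q.2 := by fun_prop
      exact hc.continuousAt.preimage_mem_nhds (by simpa using hW)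
  exact this.mono fun ε h i => h i trivial

/-- the barycenter -/
def bc (m : ℕ) : Fin (m + 2) → ℝ := fun _ => ((m : ℝ) + 2)⁻¹

theorem locdeg {c : M → P223.J.Ch (m + 1) M} (hc : Atl c) {p : M} {s : C(Dl (m + 2), M)}
    (hs : Aff c p s) : ∀ᶠ ε in 𝓝[>] (0 : ℝ), ∃ σ : C(Dl (m + 2), M),
      (∀ t, σ t = (c p).symm (c p p + ε • td (bc m) t)) ∧ Rel R p s σ := by
  obtain ⟨e, w, A, hcomp, hA, hs, ⟨τ, hτ0⟩, hτ, hp⟩ := hs
  change Fin (m + 2) → ℝ at τ
  replace hτ : ∀ i, 0 < τ i := hτ
  have hpe : p ∈ e.source := hp ▸ (hs _).1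
  have hp0 := (hc p).1
  have hst : ∀ t : Dl (m + 2), e (s t) = e p + td τ t ᵥ* A := fun t => funext fun j => by
    have a1 : e (s t) j = w j + ∑ i : Fin (m + 1), t i.succ * A i j := (hs t).2 j
    have a2 : e p j = w j + ∑ i : Fin (m + 1), τ i.succ * A i j := hp ▸ (hs ⟨τ, hτ0⟩).2 j
    have a3 : (td τ t ᵥ* A) j = ∑ i : Fin (m + 1), (t i.succ - τ i.succ) * A i j := rfl
    rw [Pi.add_apply, a1, a2, a3, add_assoc, ← Finset.sum_add_distrib]
    congr 1
    exact Finset.sum_congr rfl fun i _ => by ring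
  obtain ⟨h1, h2⟩ := hcomp p p hpe hp0
  have hD := (h1.differentiableAt (by simp)).hasFDerivAt
  generalize fderiv ℝ (cm e (c p)) (e p) = D at h2 hD
  have h0 : cm e (c p) (e p) = c p p := by rw [cm, e.left_inv hpe]
  set Dm := LinearMap.toMatrix' (D : E (m + 1) →ₗ[ℝ] E (m + 1)) with hDm
  have hdet : Dm.det = D.det := LinearMap.det_toMatrix' _
  have hDv : ∀ u, D (u ᵥ* A) = u ᵥ* (A * Dmᵀ) := fun u => by
    rw [← vecMul_vecMul, vecMul_transpose, hDm, LinearMap.toMatrix'_mulVec]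
    rfl
  obtain ⟨γ, hγ⟩ := joinedIn_pos (M := A * Dmᵀ) (by
    rw [det_mul, det_transpose, hdet]; exact mul_pos hA h2)
  obtain ⟨K, hK0, hK⟩ := (D : E (m + 1) →ₗ[ℝ] E (m + 1)).exists_antilipschitzWith
    (LinearMap.ker_eq_bot.2 (LinearEquiv.ofIsUnitDet (v := Pi.basisFun ℝ _) (v' := Pi.basisFun ℝ _)
      (f := (D : E (m + 1) →ₗ[ℝ] E (m + 1))) (by
        rw [LinearMap.det_toMatrix]; exact h2.ne'.isUnit)).injective)
  have hK' : ∀ u, ‖u‖ ≤ K * ‖D u‖ := fun u => ZeroHomClass.bound_of_antilipschitz _ hK u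
  have hK1 : (0 : ℝ) < K := hK0
  obtain ⟨r, hr, hball⟩ := Metric.isOpen_iff.1 (c p).open_target _ ((c p).map_source hp0)
  have hB := Metric.ball_mem_nhds (c p p) hr
  have w1 := hD.isLittleO.bound (c := (2 * (K : ℝ))⁻¹) (by positivity)
  have w2 : ∀ᶠ y in 𝓝 (e p), e.symm y ∈ (c p).source :=
    (e.continuousAt_symm (e.map_source hpe)).preimage_mem_nhds (by
      rw [e.left_inv hpe]; exact (c p).open_source.mem_nhds hp0)
  have w3 : ∀ᶠ y in 𝓝 (e p), cm e (c p) y ∈ Metric.ball (c p p) r :=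
    hD.continuousAt.preimage_mem_nhds (h0.symm ▸ hB)
  have w4 : ∀ᶠ y in 𝓝 (e p), c p p + D (y - e p) ∈ Metric.ball (c p p) r := by
    have : Continuous fun y => c p p + D (y - e p) := by fun_prop
    exact this.continuousAt.preimage_mem_nhds (by simpa using hB)
  have cv : Continuous fun t : Dl (m + 2) => td τ t ᵥ* A :=
    (cont_td continuous_const continuous_id).matrix_vecMul continuous_const
  have cg : Continuous fun q : I × Dl (m + 2) =>
      td (τ + (q.1 : ℝ) • (bc m - τ)) q.2 ᵥ* γ.symm q.1 :=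
    (cont_td (by fun_prop) continuous_snd).matrix_vecMul (γ.symm.continuous.comp continuous_fst)
  filter_upwards [ev_small cv (w1.and (w2.and (w3.and w4))), ev_small cg hB,
    Ioo_mem_nhdsGT (zero_lt_one' ℝ)] with ε k1 k2 hε
  have hτ1 : ∑ i, τ i = 1 := hτ0.2
  -- the first stage
  obtain ⟨σ1, e1, r1⟩ := rel_chart (R := R) e (p := p)
    (fun q => e p + (1 - (q.1 : ℝ) * (1 - ε)) • (td τ q.2 ᵥ* A))
    (continuous_const.add (Continuous.smul (f := fun q : I × Dl (m + 2) => 1 - (q.1 : ℝ) * (1 - ε))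
      (by fun_prop) (cv.comp continuous_snd))) (by
      rintro ⟨l, t⟩
      have l0 := l.2.1
      have l1 := l.2.2
      have hm : 0 ≤ (l : ℝ) * (1 - ε) := mul_nonneg l0 (sub_nonneg.2 hε.2.le)
      have hm' : (l : ℝ) * (1 - ε) ≤ 1 := by nlinarith [hε.1]
      have := e.map_source (hs ⟨_, (convex_stdSimplex ℝ _).add_smul_sub_mem hτ0 t.2
        (t := 1 - (l : ℝ) * (1 - ε)) ⟨by linarith, by linarith⟩⟩).1
      rw [hst] at this
      convert this using 2
      rw [← smul_vecMul]
      congr 1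
      funext i
      show _ * (t i.succ - τ i.succ) = τ i.succ + _ * (t i.succ - τ i.succ) - τ i.succ
      ring) (by
      intro l t ht h
      have l1 := l.2.2
      have hm' : 0 < 1 - (l : ℝ) * (1 - ε) := by nlinarith [hε.1, hε.2]
      rw [add_eq_left, smul_eq_zero] at h
      exact h.elim hm'.ne' (vm_ne hA.ne' (td_ne hτ1 hτ ht))) (s := s) (fun t => by
      simp only [Icc.coe_zero, zero_mul, sub_zero, one_smul]
      rw [← hst, e.left_inv (hs t).1])
  simp only [Icc.coe_one, one_mul, sub_sub_cancel] at e1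
  have m1 : ∀ t, σ1 t ∈ (c p).source := fun t => e1 t ▸ (k1 t).2.1
  have m2 : ∀ t, c p (σ1 t) = cm e (c p) (e p + ε • (td τ t ᵥ* A)) := fun t => by rw [e1]; rfl
  have c1 : Continuous fun t => c p (σ1 t) := (c p).continuousOn.comp_continuous σ1.continuous m1
  -- the second stage
  obtain ⟨σ2, e2, r2⟩ := rel_chart (R := R) (c p) (p := p)
    (fun q => c p (σ1 q.2) + (q.1 : ℝ) • (c p p + D (ε • (td τ q.2 ᵥ* A)) - c p (σ1 q.2)))
    ((c1.comp continuous_snd).add (Continuous.smul (f := fun q : I × Dl (m + 2) => (q.1 : ℝ))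
      (by fun_prop) ((continuous_const.add
      (D.continuous.comp ((cv.comp continuous_snd).const_smul ε))).sub (c1.comp continuous_snd))))
    (by
      rintro ⟨l, t⟩
      refine hball ((convex_ball _ _).add_smul_sub_mem ?_ ?_ l.2)
      · rw [m2]
        exact (k1 t).2.2.1
      · simpa using (k1 t).2.2.2) (by
      intro l t ht h
      have k3 := (k1 t).1
      simp only [add_sub_cancel_left, h0, ← m2] at k3
      have hu : ε • (td τ t ᵥ* A) ≠ 0 :=
        smul_ne_zero hε.1.ne' (vm_ne hA.ne' (td_ne hτ1 hτ ht))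
      generalize ε • (td τ t ᵥ* A) = u at h k3 hu
      have h3 : D u = -((1 - (l : ℝ)) • (c p (σ1 t) - c p p - D u)) := by
        have h' : c p (σ1 t) + (l : ℝ) • (c p p + D u - c p (σ1 t)) = c p p := h
        rw [eq_neg_iff_add_eq_zero, ← sub_eq_zero.2 h']
        module
      have h4 : ‖D u‖ ≤ (2 * (K : ℝ))⁻¹ * ‖u‖ := by
        rw [h3, norm_neg, norm_smul, Real.norm_of_nonneg (sub_nonneg.2 l.2.2)]
        exact (mul_le_of_le_one_left (norm_nonneg _) (by linarith [l.2.1])).trans k3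
      have h5 := (hK' u).trans (mul_le_mul_of_nonneg_left h4 hK1.le)
      rw [← mul_assoc, show (K : ℝ) * (2 * (K : ℝ))⁻¹ = 1 / 2 by field_simp] at h5
      have := norm_pos_iff.2 hu
      linarith) (s := σ1) (fun t => by
      simp only [Icc.coe_zero, zero_smul, add_zero]
      exact ((c p).left_inv (m1 t)).symm)
  simp only [Icc.coe_one, one_smul, add_sub_cancel, map_smul, hDv] at e2
  -- the third stage
  obtain ⟨σ3, e3, r3⟩ := rel_chart (R := R) (c p) (p := p)
    (fun q => c p p + ε • (td (τ + (q.1 : ℝ) • (bc m - τ)) q.2 ᵥ* γ.symm q.1))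
    (continuous_const.add (cg.const_smul ε)) (fun q => hball (k2 q)) (by
      intro l t ht h
      rw [add_eq_left, smul_eq_zero] at h
      refine h.elim hε.1.ne' (vm_ne (hγ _) (td_ne ?_ (fun i => ?_) ht))
      · simp only [Pi.add_apply, Pi.smul_apply, Pi.sub_apply, smul_eq_mul, Finset.sum_add_distrib,
          ← Finset.mul_sum, Finset.sum_sub_distrib, bc, Finset.sum_const, Finset.card_univ,
          Fintype.card_fin, nsmul_eq_mul]
        rw [hτ1]
        push_cast
        rw [mul_inv_cancel₀ (by positivity), sub_self, mul_zero, add_zero]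
      · have l0 := l.2.1
        have l1 := l.2.2
        have h5 := hτ i
        have h6 : 0 < bc m i := by unfold bc; positivity
        show 0 < τ i + (l : ℝ) * (bc m i - τ i)
        rcases l0.eq_or_lt with h7 | h7
        · rw [← h7]; linarith
        · nlinarith [mul_pos h7 h6, mul_nonneg (sub_nonneg.2 l1) h5.le]) (s := σ2) (fun t => by
      simp only [Icc.coe_zero, zero_smul, add_zero, Path.source]
      exact e2 t)
  refine ⟨σ3, fun t => ?_, (r1.trans r2).trans r3⟩
  rw [e3]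
  simp only [Icc.coe_one, one_smul, add_sub_cancel, Path.target, vecMul_one]

/-- **The local orientation is well defined.** -/
theorem rel_aff {c : M → P223.J.Ch (m + 1) M} (hc : Atl c) {p : M} {s s' : C(Dl (m + 2), M)}
    (hs : Aff c p s) (hs' : Aff c p s') : Rel R p s s' := by
  obtain ⟨ε, ⟨σ, h1, h2⟩, σ', h3, h4⟩ := ((locdeg (R := R) hc hs).and (locdeg (R := R) hc hs')).exists
  rw [show σ = σ' from ContinuousMap.ext fun t => (h1 t).trans (h3 t).symm] at h2
  exact h2.trans h4.symm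

end Vale.Agent.P223W25

end
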