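import Vale.Agent.P223W25.Hat
import Vale.Agent.P223W25.Deg

/-! # P223W: existence and uniqueness of the fundamental class -/

noncomputable section

namespace Vale.Agent.P223W25

open Set Topology Filter Matrix Vale.Agent.P246.T Vale.Agent.P223.J

variable {M : Type} [TopologicalSpace M] {m : ℕ}

theorem cast_int {α : Type} (c : α →₀ ℤ) : cast ℤ c = c :=
  Finsupp.ext fun a => by rw [cast_apply, Int.cast_id]

theorem bR_int {k : ℕ} (b : C ℤ (k + 1) M) : bR k b = P246.T.bd k b := by
  have := ext_cast (R := ℤ) (P246.T.bd k) b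
  rwa [cast_int, cast_int] at this

theorem nl_cast {R : Type} [CommRing R] {U : Set M} {k : ℕ} {c : C ℤ k M} (h : Nl U k c) :
    Nl U k (cast R c) := by
  obtain ⟨b, hb⟩ := h
  refine ⟨cast R b, ?_⟩
  rw [ext_cast, ← map_sub, ← bR_int]
  exact cast_mem hb

variable [CompactSpace M] [T2Space M] {c : M → P223.J.Ch (m + 1) M}

/-- a small simplex around `p` -/
theorem box (hc : Atl c) (p : M) : ∃ K ∈ 𝓝 p, IsClosed K ∧ ∃ s : C(Dl (m + 2), M),
    ∀ q ∈ K, Aff c q s ∧ ∀ t : Dl (m + 2), (∃ i, t i = 0) → s t ≠ q := by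
  have hp0 := (hc p).1
  have cv : Continuous fun t : Dl (m + 2) => td (bc m) t := cont_td continuous_const continuous_id
  obtain ⟨ε, hε, hε0⟩ := ((ev_small cv
    ((c p).open_target.mem_nhds ((c p).map_source hp0))).and self_mem_nhdsWithin).exists
  replace hε0 : 0 < ε := hε0
  have hb : 0 < bc m 0 := by unfold bc; positivity
  have h0 : ∀ᶠ y in 𝓝 (c p p), (∀ i, 0 < bc m 0 + (y i - c p p i) / ε) ∧
      0 < bc m 0 - ∑ i, (y i - c p p i) / ε := by
    refine (eventually_all.2 fun i => ?_).and ?_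
    · exact (continuousAt_const.eventually_lt (g := fun y : E (m + 1) =>
        bc m 0 + (y i - c p p i) / ε) (Continuous.continuousAt (by fun_prop)) (by simpa using hb))
    · exact (continuousAt_const.eventually_lt (g := fun y : E (m + 1) =>
        bc m 0 - ∑ i, (y i - c p p i) / ε) (Continuous.continuousAt (by fun_prop))
        (by simpa using hb))
  obtain ⟨K, hK, hKc, hKs⟩ := exists_mem_nhds_isClosed_subset
    (inter_mem ((c p).open_source.mem_nhds hp0) (((c p).continuousAt hp0).eventually h0))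
  let s : C(Dl (m + 2), M) := ⟨fun t => (c p).symm (c p p + ε • td (bc m) t),
    (c p).continuousOn_symm.comp_continuous (continuous_const.add (cv.const_smul ε)) hε⟩
  have hs : ∀ t, c p (s t) = c p p + ε • td (bc m) t := fun t => (c p).right_inv (hε t)
  refine ⟨K, hK, hKc, s, fun q hq => ?_⟩
  obtain ⟨k1, k2, k3⟩ := hKs hq
  let τ : Fin (m + 2) → ℝ := Fin.cons (bc m 0 - ∑ i, (c p q i - c p p i) / ε)
    fun i => bc m 0 + (c p q i - c p p i) / ε
  have hτ : ∀ i, 0 < τ i := fun i => Fin.cases k3 k2 i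
  have hτ1 : ∑ i, τ i = 1 := by
    rw [Fin.sum_univ_succ]
    simp only [τ, Fin.cons_zero, Fin.cons_succ, Finset.sum_add_distrib, Finset.sum_const,
      Finset.card_univ, Fintype.card_fin, nsmul_eq_mul, bc]
    push_cast
    field_simp
    ring
  have hq1 : ∀ t : Dl (m + 2), c p (s t) = c p q + ε • td τ t := fun t => by
    rw [hs]
    funext i
    show c p p i + ε * (t i.succ - bc m 0) =
      c p q i + ε * (t i.succ - (bc m 0 + (c p q i - c p p i) / ε))
    field_simp
    ring
  refine ⟨⟨c p, fun j => c p p j - ε * bc m 0, diagonal fun _ => ε, fun a => (hc p).2 a, ?_,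
    fun t => ⟨(c p).map_target (hε t), fun j => ?_⟩, ⟨τ, fun i => (hτ i).le, hτ1⟩, hτ, ?_⟩, ?_⟩
  · rw [det_diagonal]
    exact Finset.prod_pos fun _ _ => hε0
  · have a : ∑ i : Fin (m + 1), t i.succ * diagonal (fun _ => ε) i j = t j.succ * ε := by
      rw [Finset.sum_eq_single j (fun i _ hi => by rw [diagonal_apply_ne _ hi, mul_zero])
        (fun h => (h (Finset.mem_univ _)).elim), diagonal_apply_eq]
    refine (congrFun (hs t) j).trans (Eq.trans ?_ (congrArg _ a.symm))
    show c p p j + ε * (t j.succ - bc m 0) = c p p j - ε * bc m 0 + t j.succ * ε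
    ring
  · refine (c p).injOn ((c p).map_target (hε _)) k1 ((hq1 _).trans ?_)
    rw [add_eq_left, smul_eq_zero]
    exact Or.inr (funext fun i => sub_self _)
  · intro t ht h
    have := hq1 t
    rw [h, left_eq_add, smul_eq_zero] at this
    exact this.elim hε0.ne' (td_ne hτ1 hτ ht)

variable (c) in
/-- fundamental cycles -/
def FC (z : C ℝ (m + 1) M) : Prop := bR m z = 0 ∧ ∀ p, ∃ s : C(Dl (m + 2), M), Aff c p s ∧
  Nl {p}ᶜ (m + 1) (z - cast ℝ (Finsupp.single s 1))

/-- **Existence** of an integral fundamental cycle -/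
theorem exists_fc (hc : Atl c) : ∃ z : C ℤ (m + 1) M, FC c (cast ℝ z) := by
  choose K hK hKc s hs using box hc
  have h1 : ∀ q, Aff c q (s q) := fun q => (hs q q (mem_of_mem_nhds (hK q))).1
  obtain ⟨z, h2, h3⟩ := glue (R := ℤ) (fun p => ⟨c p, (hc p).1⟩)
    (fun q => cast ℤ (Finsupp.single (s q) 1)) fun p => ⟨K p, hK p, hKc p,
      cast ℤ (Finsupp.single (s p) 1), by
        rw [ext_cast, bd_single]
        exact cast_mem (Submodule.sum_mem _ fun i _ => SD.single_mem (A := (K p)ᶜ)
          (σ := (s p).comp (face (m + 1) i))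
          (fun x h => (hs p _ h).2 _ ⟨i, FM.face_self i x⟩ rfl) _),
      fun q hq => rel_aff hc (hs p q hq).1 (h1 q)⟩
  refine ⟨z, ?_, fun q => ⟨s q, h1 q, ?_⟩⟩
  · rw [ext_cast, ← bR_int, h2, map_zero]
  · have := nl_cast (R := ℝ) (h3 q)
    rwa [map_sub, cast_int] at this

/-- **Uniqueness** of the fundamental class -/
theorem fc_iff (hc : Atl c) {z0 z : C ℝ (m + 1) M} (h0 : FC c z0) :
    FC c z ↔ ∃ b, z = z0 + bR (m + 1) b := by
  constructor
  · intro h
    obtain ⟨b, hb⟩ := uniq (R := ℝ) (fun p => ⟨c p, (hc p).1⟩) (z := z - z0)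
      (by rw [map_sub, h.1, h0.1, sub_zero]) fun q => by
        obtain ⟨s, h1, h2⟩ := h.2 q
        obtain ⟨s', h3, h4⟩ := h0.2 q
        have := (h2.add (rel_aff (R := ℝ) hc h1 h3)).sub h4
        rwa [sub_add_sub_cancel, sub_sub_sub_cancel_right] at this
    exact ⟨b, by rw [← hb, add_sub_cancel]⟩
  · rintro ⟨b, rfl⟩
    refine ⟨by rw [map_add, h0.1, bR_bR, add_zero], fun p => ?_⟩
    obtain ⟨s, h1, h2⟩ := h0.2 p
    refine ⟨s, h1, ?_⟩
    have := h2.add (Nl.bd b)
    rwa [sub_add_eq_add_sub] at this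

end Vale.Agent.P223W25

end
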