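import Vale.Agent.P223W25.Hom
import Mathlib.Analysis.Normed.Module.Ball.Homeomorph

/-! # P223W: the top homology of a manifold relative to the complement of a compact set -/

noncomputable section

namespace Vale.Agent.P223W25

open Set Topology Vale.Agent.P246.T

variable {R : Type} [CommRing R] {M : Type} [TopologicalSpace M] [T2Space M] {m : ℕ}

variable (R m) in
/-- vanishing above the dimension `m + 1`, and uniqueness in the dimension `m + 1` -/
structure PK (K : Set M) : Prop where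
  van : ∀ k, m + 1 ≤ k → HZ R Kᶜ k
  uq : ∀ c : C R (m + 1) M, bR m c ∈ Cn R Kᶜ m → (∀ x ∈ K, Nl {x}ᶜ (m + 1) c) →
    Nl Kᶜ (m + 1) c

omit [T2Space M] in
theorem pk_empty : PK R m (∅ : Set M) :=
  ⟨fun _ _ c _ => Nl.of_mem (by rw [compl_empty]; exact cn_univ c),
    fun c _ _ => Nl.of_mem (by rw [compl_empty]; exact cn_univ c)⟩

omit [T2Space M] in
theorem pk_union {A B : Set M} (hA : IsClosed A) (hB : IsClosed B) (h1 : PK R m A)
    (h2 : PK R m B) (h3 : PK R m (A ∩ B)) : PK R m (A ∪ B) := by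
  have sA : (A ∪ B)ᶜ ⊆ Aᶜ := compl_subset_compl.2 subset_union_left
  have sB : (A ∪ B)ᶜ ⊆ Bᶜ := compl_subset_compl.2 subset_union_right
  refine ⟨fun k hk c hc => ?_, fun c hc h => ?_⟩
  · rw [compl_union]
    exact mv1 hA.isOpen_compl hB.isOpen_compl (compl_inter A B ▸ h3.van (k + 1) (by omega))
      (h1.van k hk c (cn_mono sA hc)) (h2.van k hk c (cn_mono sB hc))
  · rw [compl_union]
    exact mv1 hA.isOpen_compl hB.isOpen_compl (compl_inter A B ▸ h3.van (m + 1) le_rfl)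
      (h1.uq c (cn_mono sA hc) fun x hx => h x (Or.inl hx))
      (h2.uq c (cn_mono sB hc) fun x hx => h x (Or.inr hx))

section Chart

variable {φ : C(Fin (m + 1) → ℝ, M)} (hφ : IsOpenEmbedding φ)
include hφ

theorem lift {K : Set (Fin (m + 1) → ℝ)} (hK : IsCompact K) {k : ℕ} {c : C R (k + 1) M}
    (hc : bR k c ∈ Cn R (φ '' K)ᶜ k) : ∃ c' : C R (k + 1) (Fin (m + 1) → ℝ),
      bR k c' ∈ Cn R Kᶜ k ∧ Nl (φ '' K)ᶜ (k + 1) (c - pR φ (k + 1) c') := by
  obtain ⟨d, -, u, hu, v, hv, e⟩ := split hφ.isOpen_range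
    (hK.image φ.continuous).isClosed.isOpen_compl
    (cn_mono (fun x _ => by
      by_cases h : x ∈ φ '' K
      · exact Or.inl (image_subset_range _ _ h)
      · exact Or.inr h) (cn_univ c)) (zero_mem _) hc (zero_add _).symm
  obtain ⟨c', rfl⟩ := exists_pR hφ.isEmbedding hu
  refine ⟨c', ?_, d, ?_⟩
  · have h1 : pR φ k (bR k c') ∈ Cn R (φ '' K)ᶜ k := by
      have := sub_mem hc (bR_mem hv)
      rw [e, map_add, map_add, bR_bR, zero_add, add_sub_cancel_right, pR_bR] at this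
      exact this
    have := mem_of_pR hφ.injective h1
    rwa [preimage_compl, preimage_image_eq _ hφ.injective] at this
  · convert hv using 1
    rw [e]
    abel

theorem unlift {K : Set (Fin (m + 1) → ℝ)} (hK : IsCompact K) {k : ℕ}
    {c' : C R k (Fin (m + 1) → ℝ)} (h : Nl (φ '' K)ᶜ k (pR φ k c')) : Nl Kᶜ k c' := by
  obtain ⟨b, hb⟩ := h
  obtain ⟨d, -, u, hu, v, hv, e⟩ := split hφ.isOpen_range
    (hK.image φ.continuous).isClosed.isOpen_compl
    (cn_mono (fun x _ => by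
      by_cases h : x ∈ φ '' K
      · exact Or.inl (image_subset_range _ _ h)
      · exact Or.inr h) (cn_univ b))
    (pR_mem (f := φ) (A := univ) (fun x _ => mem_range_self x) (cn_univ c')) (neg_mem hb)
    (by abel)
  obtain ⟨u', rfl⟩ := exists_pR hφ.isEmbedding hu
  refine ⟨u', ?_⟩
  have h1 : pR φ k (c' - bR k u') ∈ Cn R (φ '' K)ᶜ k := by
    have := add_mem hb (bR_mem hv)
    rw [e, map_add, map_add, bR_bR, zero_add, pR_bR] at this
    rw [map_sub]
    convert this using 1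
    abel
  have := mem_of_pR hφ.injective h1
  rwa [preimage_compl, preimage_image_eq _ hφ.injective] at this

omit [T2Space M] in
theorem nl_image {K : Set (Fin (m + 1) → ℝ)} {k : ℕ} {c' : C R k (Fin (m + 1) → ℝ)}
    (h : Nl Kᶜ k c') : Nl (φ '' K)ᶜ k (pR φ k c') := by
  refine h.push φ ?_
  rintro x hx ⟨y, hy, e⟩
  exact hx (hφ.injective e ▸ hy)

theorem nl_cvx {B : Set (Fin (m + 1) → ℝ)} (hB : Convex ℝ B) (hK : IsCompact B)
    {x : Fin (m + 1) → ℝ} (hx : x ∈ B) {k : ℕ} {c : C R (k + 1) M}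
    (hc : bR k c ∈ Cn R (φ '' B)ᶜ k) (h : Nl {φ x}ᶜ (k + 1) c) : Nl (φ '' B)ᶜ (k + 1) c := by
  obtain ⟨c', h1, h2⟩ := lift hφ hK hc
  have h3 : Nl (φ '' {x})ᶜ (k + 1) (pR φ (k + 1) c') := by
    rw [image_singleton]
    have := h.sub (h2.mono (compl_subset_compl.2 (singleton_subset_iff.2 (mem_image_of_mem φ hx))))
    rwa [sub_sub_cancel] at this
  have := h2.add (nl_image hφ (nl_convex hB hK.isBounded hx h1 (unlift hφ isCompact_singleton h3)))
  rwa [sub_add_cancel] at this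

theorem hz_pt (x : Fin (m + 1) → ℝ) {k : ℕ} (hk : m + 1 ≤ k) : HZ R ({φ x}ᶜ : Set M) k := by
  intro c hc
  rw [← image_singleton] at hc ⊢
  obtain ⟨c', h1, h2⟩ := lift hφ isCompact_singleton hc
  have := h2.add (nl_image hφ (hz_point x hk c' h1))
  rwa [sub_add_cancel] at this

theorem pk_cvx {B : Set (Fin (m + 1) → ℝ)} (hB : Convex ℝ B) (hK : IsCompact B) :
    PK R m (φ '' B) := by
  rcases B.eq_empty_or_nonempty with rfl | ⟨x, hx⟩
  · rw [image_empty]
    exact pk_empty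
  have hs : (φ '' B)ᶜ ⊆ {φ x}ᶜ :=
    compl_subset_compl.2 (singleton_subset_iff.2 (mem_image_of_mem φ hx))
  exact ⟨fun k hk c hc => nl_cvx hφ hB hK hx hc (hz_pt hφ x hk c (cn_mono hs hc)),
    fun c hc h => nl_cvx hφ hB hK hx hc (h _ (mem_image_of_mem φ hx))⟩

theorem pk_fin {ι : Type} (s : Finset ι) : ∀ B : ι → Set (Fin (m + 1) → ℝ),
    (∀ i, Convex ℝ (B i) ∧ IsCompact (B i)) → PK R m (φ '' ⋃ i ∈ s, B i) := by
  classical
  induction s using Finset.induction_on with
  | empty =>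
    intro B _
    simp only [Finset.notMem_empty, iUnion_of_empty, iUnion_empty, image_empty]
    exact pk_empty
  | insert a s _ ih =>
    intro B hB
    rw [Finset.set_biUnion_insert, image_union]
    refine pk_union ((hB a).2.image φ.continuous).isClosed
      ((s.isCompact_biUnion fun i _ => (hB i).2).image φ.continuous).isClosed
      (pk_cvx hφ (hB a).1 (hB a).2) (ih B hB) ?_
    rw [← image_inter hφ.injective, inter_iUnion₂]
    exact ih (fun i => B a ∩ B i) fun i => ⟨(hB a).1.inter (hB i).1, (hB a).2.inter (hB i).2⟩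

omit hφ in
theorem cover {K : Set (Fin (m + 1) → ℝ)} (hK : IsCompact K) {k : ℕ} {a : C R k M}
    (ha : a ∈ Cn R (φ '' K)ᶜ k) : ∃ (s : Finset K) (r : K → ℝ), (∀ i, 0 < r i) ∧
      K ⊆ ⋃ i ∈ s, Metric.closedBall i.1 (r i) ∧
      a ∈ Cn R (φ '' ⋃ i ∈ s, Metric.closedBall i.1 (r i))ᶜ k := by
  obtain ⟨Z, hZ, hZK, hZa⟩ := exists_compact ha
  have : ∀ x : K, ∃ r > 0, Metric.closedBall x.1 r ⊆ (φ ⁻¹' Z)ᶜ := fun x =>
    Metric.nhds_basis_closedBall.mem_iff.1
      ((hZ.isClosed.preimage φ.continuous).isOpen_compl.mem_nhds fun h =>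
        hZK h (mem_image_of_mem φ x.2))
  choose r hr0 hr using this
  obtain ⟨s, hs⟩ := hK.elim_nhds_subcover' (fun x hx => Metric.closedBall x (r ⟨x, hx⟩))
    fun x hx => Metric.closedBall_mem_nhds x (hr0 ⟨x, hx⟩)
  refine ⟨s, r, hr0, hs, cn_mono ?_ hZa⟩
  rintro _ hz ⟨y, hy, rfl⟩
  obtain ⟨i, -, hi⟩ := mem_iUnion₂.1 hy
  exact hr i hi hz

theorem pk_cpt {K : Set (Fin (m + 1) → ℝ)} (hK : IsCompact K) : PK R m (φ '' K) := by
  have hb : ∀ (r : K → ℝ) (i : K), Convex ℝ (Metric.closedBall i.1 (r i)) ∧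
      IsCompact (Metric.closedBall i.1 (r i)) := fun r i =>
    ⟨convex_closedBall _ _, isCompact_closedBall _ _⟩
  refine ⟨fun k hk c hc => ?_, fun c hc h => ?_⟩
  · obtain ⟨s, r, -, h1, h2⟩ := cover hK hc
    exact ((pk_fin hφ s _ (hb r)).van k hk c h2).mono (compl_subset_compl.2 (image_mono h1))
  · obtain ⟨s, r, hr, h1, h2⟩ := cover hK hc
    refine ((pk_fin hφ s _ (hb r)).uq c h2 ?_).mono (compl_subset_compl.2 (image_mono h1))
    rintro _ ⟨y, hy, rfl⟩
    obtain ⟨i, hi, hy'⟩ := mem_iUnion₂.1 hy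
    refine (nl_cvx hφ (hb r i).1 (hb r i).2 (Metric.mem_closedBall_self (hr i).le)
      (cn_mono (compl_subset_compl.2 (image_mono ?_)) h2) (h _ (mem_image_of_mem φ i.2))).mono
      (compl_subset_compl.2 (singleton_subset_iff.2 (mem_image_of_mem φ hy')))
    exact subset_biUnion_of_mem (u := fun i : K => Metric.closedBall i.1 (r i)) hi

end Chart

omit [T2Space M] in
theorem exists_emb (e : OpenPartialHomeomorph M (Fin (m + 1) → ℝ)) {p : M} (hp : p ∈ e.source) :
    ∃ φ : C(Fin (m + 1) → ℝ, M), IsOpenEmbedding φ ∧ φ 0 = p := by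
  obtain ⟨r, hr, h⟩ := Metric.isOpen_iff.1 e.open_target _ (e.map_source hp)
  let f := (OpenPartialHomeomorph.univBall (e p) r).trans e.symm
  have hf : f.source = univ := by
    refine eq_univ_of_forall fun x => ⟨by simp, h ?_⟩
    rw [← OpenPartialHomeomorph.univBall_target (e p) hr]
    exact OpenPartialHomeomorph.map_source _ (by simp)
  have h1 := f.isOpenEmbedding hf
  refine ⟨⟨f, h1.continuous⟩, h1, ?_⟩
  show e.symm (OpenPartialHomeomorph.univBall (e p) r 0) = p
  rw [OpenPartialHomeomorph.univBall_apply_zero, e.left_inv hp]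

/-- **Vanishing and uniqueness** for all closed subsets of a compact manifold -/
theorem pk_all [CompactSpace M]
    (hM : ∀ p : M, ∃ e : OpenPartialHomeomorph M (Fin (m + 1) → ℝ), p ∈ e.source) {K : Set M}
    (hK : IsClosed K) : PK R m K := by
  have key : ∃ K0, IsClosed K0 ∧ (univ : Set M) ⊆ K0 ∧ ∀ K, IsClosed K → K ⊆ K0 → PK R m K := by
    refine isCompact_univ.induction_on (p := fun S => ∃ K0, IsClosed K0 ∧ S ⊆ K0 ∧
      ∀ K, IsClosed K → K ⊆ K0 → PK R m K) ⟨∅, isClosed_empty, Subset.rfl, fun K _ h => ?_⟩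
      ?_ ?_ ?_
    · rw [subset_empty_iff.1 h]
      exact pk_empty
    · rintro s t hst ⟨K0, h1, h2, h3⟩
      exact ⟨K0, h1, hst.trans h2, h3⟩
    · rintro s t ⟨A, h1, h2, h3⟩ ⟨B, k1, k2, k3⟩
      refine ⟨A ∪ B, h1.union k1, union_subset_union h2 k2, fun K hK h => ?_⟩
      rw [← inter_eq_left.2 h, inter_union_distrib_left]
      exact pk_union (hK.inter h1) (hK.inter k1) (h3 _ (hK.inter h1) inter_subset_right)
        (k3 _ (hK.inter k1) inter_subset_right)
        (h3 _ ((hK.inter h1).inter (hK.inter k1)) (inter_subset_left.trans inter_subset_right))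
    · intro p _
      obtain ⟨e, he⟩ := hM p
      obtain ⟨φ, hφ, rfl⟩ := exists_emb e he
      have hc := isCompact_closedBall (0 : Fin (m + 1) → ℝ) 1
      refine ⟨φ '' Metric.closedBall 0 1, mem_nhdsWithin_of_mem_nhds
        (hφ.isOpenMap.image_mem_nhds (Metric.closedBall_mem_nhds _ one_pos)), _,
        (hc.image φ.continuous).isClosed, Subset.rfl, fun K hK h => ?_⟩
      have : K = φ '' (Metric.closedBall 0 1 ∩ φ ⁻¹' K) := by
        rw [image_inter_preimage, inter_eq_right.2 h]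
      rw [this]
      exact pk_cpt hφ (hc.inter_right (hK.preimage φ.continuous))
  obtain ⟨K0, -, h1, h2⟩ := key
  exact h2 K hK ((subset_univ K).trans h1)

/-- **Gluing** of local classes -/
theorem glue [CompactSpace M]
    (hM : ∀ p : M, ∃ e : OpenPartialHomeomorph M (Fin (m + 1) → ℝ), p ∈ e.source)
    (g : M → C R (m + 1) M) (hg : ∀ p, ∃ K ∈ 𝓝 p, IsClosed K ∧ ∃ z, bR m z ∈ Cn R Kᶜ m ∧
      ∀ q ∈ K, Nl {q}ᶜ (m + 1) (z - g q)) :
    ∃ z, bR m z = 0 ∧ ∀ q, Nl {q}ᶜ (m + 1) (z - g q) := by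
  have key : ∃ K, IsClosed K ∧ (univ : Set M) ⊆ K ∧ ∃ z, bR m z ∈ Cn R Kᶜ m ∧
      ∀ q ∈ K, Nl {q}ᶜ (m + 1) (z - g q) := by
    refine isCompact_univ.induction_on (p := fun S => ∃ K, IsClosed K ∧ S ⊆ K ∧
      ∃ z, bR m z ∈ Cn R Kᶜ m ∧ ∀ q ∈ K, Nl {q}ᶜ (m + 1) (z - g q))
      ⟨∅, isClosed_empty, Subset.rfl, 0, by simp, fun _ h => h.elim⟩ ?_ ?_ ?_
    · rintro s t hst ⟨K0, h1, h2, h3⟩
      exact ⟨K0, h1, hst.trans h2, h3⟩
    · rintro s t ⟨A, h1, h2, a, h3, h4⟩ ⟨B, k1, k2, b, k3, k4⟩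
      obtain ⟨d, hd⟩ := (pk_all (R := R) hM (h1.inter k1)).uq (a - b) (by
        rw [map_sub]
        exact sub_mem (cn_mono (compl_subset_compl.2 inter_subset_left) h3)
          (cn_mono (compl_subset_compl.2 inter_subset_right) k3)) fun x hx => by
        have := (h4 x hx.1).sub (k4 x hx.2)
        rwa [sub_sub_sub_cancel_right] at this
      rw [compl_inter] at hd
      obtain ⟨d', -, u, hu, v, hv, e⟩ := split h1.isOpen_compl k1.isOpen_compl hd h3 (neg_mem k3)
        (by rw [map_sub, bR_bR, sub_zero, map_sub, sub_eq_add_neg])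
      have e1 : a - u = b + v + bR (m + 1) (d + d') := by
        rw [map_add, sub_eq_iff_eq_add.1 (sub_eq_iff_eq_add.1 e)]
        abel
      refine ⟨A ∪ B, h1.union k1, union_subset_union h2 k2, a - u, ?_, ?_⟩
      · rw [compl_union]
        refine cn_inter (by rw [map_sub]; exact sub_mem h3 (bR_mem hu)) ?_
        rw [e1, map_add, map_add, bR_bR, add_zero]
        exact add_mem k3 (bR_mem hv)
      · rintro q (hq | hq)
        · have := (h4 q hq).sub (Nl.of_mem
            (cn_mono (compl_subset_compl.2 (singleton_subset_iff.2 hq)) hu))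
          convert this using 1
          abel
        · have := ((k4 q hq).add (Nl.of_mem
            (cn_mono (compl_subset_compl.2 (singleton_subset_iff.2 hq)) hv))).add (Nl.bd (d + d'))
          rw [e1]
          convert this using 1
          abel
    · intro p _
      obtain ⟨K, h1, h2, h3⟩ := hg p
      exact ⟨K, mem_nhdsWithin_of_mem_nhds h1, K, h2, Subset.rfl, h3⟩
  obtain ⟨K, -, h1, z, h2, h3⟩ := key
  rw [univ_subset_iff.1 h1, compl_univ] at h2
  exact ⟨z, cn_empty h2, fun q => h3 q (h1 trivial)⟩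

/-- **Uniqueness**: a cycle which vanishes at all points is a boundary -/
theorem uniq [CompactSpace M]
    (hM : ∀ p : M, ∃ e : OpenPartialHomeomorph M (Fin (m + 1) → ℝ), p ∈ e.source)
    {z : C R (m + 1) M} (hz : bR m z = 0) (h : ∀ q, Nl {q}ᶜ (m + 1) z) :
    ∃ b, z = bR (m + 1) b := by
  obtain ⟨b, hb⟩ := (pk_all (R := R) hM isClosed_univ).uq z (by rw [hz]; exact zero_mem _)
    fun x _ => h x
  rw [compl_univ] at hb
  exact ⟨b, sub_eq_zero.1 (cn_empty hb)⟩

end Vale.Agent.P223W25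

end
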