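import Vale.Agent.P223W25.Ch

/-! # P223W: relative homology, Mayer-Vietoris, the local homology of `ℝ^n` -/

noncomputable section

namespace Vale.Agent.P223W25

open Set Vale.Agent.P246.T

variable {R : Type} [CommRing R] {M N : Type} [TopologicalSpace M] [TopologicalSpace N]

/-- `c` is zero in the homology of the pair `(M, U)` -/
def Nl (U : Set M) (k : ℕ) (c : C R k M) : Prop := ∃ b : C R (k + 1) M, c - bR k b ∈ Cn R U k

variable (R) in
/-- `H_(k+1)(M, U) = 0` -/
def HZ (U : Set M) (k : ℕ) : Prop := ∀ c : C R (k + 1) M, bR k c ∈ Cn R U k → Nl U (k + 1) c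

namespace Nl

variable {U V : Set M} {k : ℕ} {c c' : C R k M}

theorem of_mem (h : c ∈ Cn R U k) : Nl U k c := ⟨0, by simpa using h⟩

theorem bd (b : C R (k + 1) M) : Nl U k (bR k b) := ⟨b, by simp⟩

theorem add (h : Nl U k c) (h' : Nl U k c') : Nl U k (c + c') := by
  obtain ⟨b, hb⟩ := h
  obtain ⟨b', hb'⟩ := h'
  refine ⟨b + b', ?_⟩
  have := add_mem hb hb'
  rw [map_add]
  convert this using 1
  abel

theorem neg (h : Nl U k c) : Nl U k (-c) := by
  obtain ⟨b, hb⟩ := h
  refine ⟨-b, ?_⟩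
  have := neg_mem hb
  rw [map_neg]
  convert this using 1
  abel

theorem sub (h : Nl U k c) (h' : Nl U k c') : Nl U k (c - c') := by
  rw [sub_eq_add_neg]
  exact h.add h'.neg

theorem mono (hUV : U ⊆ V) (h : Nl U k c) : Nl V k c := by
  obtain ⟨b, hb⟩ := h
  exact ⟨b, cn_mono hUV hb⟩

theorem push (f : C(M, N)) {W : Set N} (hf : ∀ x ∈ U, f x ∈ W) (h : Nl U k c) :
    Nl W k (pR f k c) := by
  obtain ⟨b, hb⟩ := h
  refine ⟨pR f (k + 1) b, ?_⟩
  rw [pR_bR, ← map_sub]
  exact pR_mem hf hb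

theorem cyc {c : C R (k + 1) M} (h : Nl U (k + 1) c) : bR k c ∈ Cn R U k := by
  obtain ⟨b, hb⟩ := h
  have := bR_mem hb
  rwa [map_sub, bR_bR, sub_zero] at this

end Nl

/-- Mayer-Vietoris, injectivity -/
theorem mv1 {U V : Set M} (hU : IsOpen U) (hV : IsOpen V) {k : ℕ} (h : HZ R (U ∪ V) k)
    {c : C R k M} (h1 : Nl U k c) (h2 : Nl V k c) : Nl (U ∩ V) k c := by
  obtain ⟨a, ha⟩ := h1
  obtain ⟨b, hb⟩ := h2
  have e1 : bR k (a - b) = -(c - bR k a) + (c - bR k b) := by rw [map_sub]; abel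
  obtain ⟨d, hd⟩ := h (a - b) (by
    rw [e1]
    exact add_mem (cn_mono subset_union_left (neg_mem ha)) (cn_mono subset_union_right hb))
  obtain ⟨d', -, u, hu, v, hv, e2⟩ := split hU hV hd (neg_mem ha) hb (by
    rw [map_sub, bR_bR, sub_zero, e1])
  have e3 := congrArg (bR k) e2
  rw [map_sub, bR_bR, sub_zero, map_add, map_add, bR_bR, zero_add, map_sub] at e3
  refine ⟨a - u, cn_inter ?_ ?_⟩
  · have := add_mem ha (bR_mem hu)
    rw [map_sub]
    convert this using 1
    abel
  · have := sub_mem hb (bR_mem hv)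
    rw [map_sub, sub_eq_iff_eq_add.1 e3]
    convert this using 1
    abel

/-- Mayer-Vietoris, the connecting map -/
theorem mv2 {U V : Set M} (hU : IsOpen U) (hV : IsOpen V) {k : ℕ} (h : HZ R (U ∩ V) k)
    (h1 : HZ R U (k + 1)) (h2 : HZ R V (k + 1)) : HZ R (U ∪ V) (k + 1) := by
  intro c hc
  obtain ⟨d, hd, u, hu, v, hv, e⟩ := split hU hV hc (zero_mem _) (zero_mem _) (by
    rw [bR_bR, add_zero])
  have e0 := congrArg (bR k) e
  rw [bR_bR, map_add, map_add, bR_bR, zero_add] at e0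
  obtain ⟨a, ha⟩ := h u (cn_inter (bR_mem hu) (by
    rw [eq_neg_of_add_eq_zero_left e0.symm]
    exact neg_mem (bR_mem hv)))
  have k1 := h1 a (by
    have := sub_mem hu (cn_mono inter_subset_left ha)
    rwa [sub_sub_cancel] at this)
  have k2 := h2 (c - d - a) (by
    have := add_mem hv (cn_mono inter_subset_right ha)
    rw [map_sub, map_sub, e]
    convert this using 1
    abel)
  have := ((k1.mono subset_union_left).add (k2.mono subset_union_right)).add (Nl.of_mem hd)
  convert this using 1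
  abel

/-- homotopy invariance -/
theorem nl_hom (H : C(I × M, M)) (g : C(M, M)) (h0 : ∀ x, H (0, x) = x)
    (h1 : ∀ x, H (1, x) = g x) {U : Set M} (hU : ∀ t, ∀ x ∈ U, H (t, x) ∈ U) {k : ℕ}
    {c : C R (k + 1) M} (hc : bR k c ∈ Cn R U k) : Nl U (k + 1) (c - pR g (k + 1) c) := by
  refine ⟨-prR H (k + 1) c, ?_⟩
  rw [map_neg, bR_prR H (ContinuousMap.id M) g h0 h1, pR_id]
  have := neg_mem (prR_mem (R := R) H hU hc)
  convert this using 1
  abel

theorem hz_star (H : C(I × M, M)) (y : M) (h0 : ∀ x, H (0, x) = x) (h1 : ∀ x, H (1, x) = y)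
    {U : Set M} (hy : y ∈ U) (hU : ∀ t, ∀ x ∈ U, H (t, x) ∈ U) (k : ℕ) : HZ R U k := by
  intro c hc
  have := (nl_hom H (ContinuousMap.const M y) h0 h1 hU hc).add
    (Nl.of_mem (pR_mem (f := ContinuousMap.const M y) (A := univ) (fun _ _ => hy) (cn_univ c)))
  rwa [sub_add_cancel] at this

theorem pR_const (y : M) (k : ℕ) (c : C R k M) : pR (ContinuousMap.const M y) k c =
    (c.sum fun _ r => r) • cast R (ksx k y) := by
  induction c using Finsupp.induction_linear with
  | zero => simp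
  | add a b ha hb =>
    rw [map_add, ha, hb, Finsupp.sum_add_index' (fun _ => rfl) (fun _ _ _ => rfl), add_smul]
  | single σ r =>
    rw [ext_single, push_single, Finsupp.sum_single_index rfl]
    rfl

theorem hz_empty (H : C(I × M, M)) (y : M) (h0 : ∀ x, H (0, x) = x) (h1 : ∀ x, H (1, x) = y)
    (k : ℕ) : HZ R (∅ : Set M) k := by
  intro c hc
  have h2 := nl_hom H (ContinuousMap.const M y) h0 h1 (fun _ _ h => h.elim) hc
  suffices Nl ∅ (k + 1) (pR (ContinuousMap.const M y) (k + 1) c) by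
    have := h2.add this
    rwa [sub_add_cancel] at this
  have h3 : bR k (pR (ContinuousMap.const M y) (k + 1) c) = 0 := by
    rw [pR_bR, cn_empty hc, map_zero]
  rw [pR_const] at h3 ⊢
  by_cases hn : Even (k + 2)
  · have h4 := FM.bd_ksx (M := M) (k + 1) y
    rw [Fin.sum_neg_one_pow, if_neg (by rw [Nat.even_add_one]; simpa using hn), one_smul] at h4
    rw [← h4, ← ext_cast, ← map_smul]
    exact Nl.bd _
  · have h4 := FM.bd_ksx (M := M) k y
    rw [Fin.sum_neg_one_pow, if_neg hn, one_smul] at h4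
    rw [map_smul, ext_cast, h4, ksx, cast_single, Finsupp.smul_single, Finsupp.single_eq_zero,
      Int.cast_one, smul_eq_mul, mul_one] at h3
    rw [h3, zero_smul]
    exact Nl.of_mem (zero_mem _)

section Euc

variable {n : ℕ}

/-- the straight line homotopy to `y` -/
def lineH (y : Fin n → ℝ) : C(I × (Fin n → ℝ), Fin n → ℝ) :=
  ⟨fun q => q.2 + (q.1 : ℝ) • (y - q.2), by fun_prop⟩

/-- the complement of a coordinate subspace through `x` -/
def Uj (x : Fin n → ℝ) (j : ℕ) : Set (Fin n → ℝ) := {y | ∃ i : Fin n, j ≤ i ∧ y i ≠ x i}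

theorem isOpen_Uj (x : Fin n → ℝ) (j : ℕ) : IsOpen (Uj x j) := by
  have : Uj x j = ⋃ i : Fin n, ⋃ _ : j ≤ i, {y | y i ≠ x i} := by
    ext y
    simp [Uj]
  rw [this]
  exact isOpen_iUnion fun i => isOpen_iUnion fun _ =>
    isOpen_ne_fun (continuous_apply i) continuous_const

theorem hz_half (x : Fin n → ℝ) (j : Fin n) (s : ℝ) (hs : s ≠ 0) (k : ℕ) :
    HZ R (Uj x (j + 1) ∪ {y | 0 < s * (y j - x j)}) k := by
  refine hz_star (lineH (x + Pi.single j s)) (x + Pi.single j s) (fun y => by simp [lineH])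
    (fun y => by simp [lineH]) (Or.inr ?_) ?_ k
  · simp only [mem_ofPred_eq, Pi.add_apply, Pi.single_eq_same, add_sub_cancel_left]
    exact mul_self_pos.2 hs
  · intro t y hy
    have ht0 := t.2.1
    have ht1 := t.2.2
    obtain ⟨z, hz, hzi⟩ : ∃ z, lineH (x + Pi.single j s) (t, y) = z ∧
        ∀ i, z i = y i + t * (x i + (Pi.single j s : Fin n → ℝ) i - y i) := ⟨_, rfl, fun i => rfl⟩
    rw [hz]
    have hj : s * (z j - x j) = (1 - t) * (s * (y j - x j)) + t * (s * s) := by
      rw [hzi, Pi.single_eq_same]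
      ring
    have hss := mul_self_pos.2 hs
    rcases ht1.eq_or_lt with h1 | h1
    · refine Or.inr (show 0 < s * (z j - x j) from ?_)
      rw [hj, h1]
      linarith
    rcases hy with ⟨i, hi, hy⟩ | hy
    · refine Or.inl ⟨i, hi, fun h => hy ?_⟩
      have hij : i ≠ j := fun e => by rw [e] at hi; omega
      rw [hzi, Pi.single_eq_of_ne hij] at h
      have : (1 - (t : ℝ)) * (y i - x i) = 0 := by linarith
      rcases mul_eq_zero.1 this with h2 | h2
      · linarith
      · linarith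
    · refine Or.inr (show 0 < s * (z j - x j) from ?_)
      rw [hj]
      have h3 : 0 < s * (y j - x j) := hy
      have h4 := mul_pos (sub_pos.2 h1) h3
      have h5 := mul_nonneg ht0 hss.le
      linarith

theorem hz_Uj (x : Fin n → ℝ) : ∀ d j, j + d = n → ∀ k, d ≤ k → HZ R (Uj x j) k := by
  intro d
  induction d with
  | zero =>
    intro j hj k _
    have : Uj x j = ∅ := eq_empty_of_forall_notMem fun y ⟨i, hi, _⟩ => by
      have := i.2
      omega
    rw [this]
    exact hz_empty (lineH x) x (fun y => by simp [lineH]) (fun y => by simp [lineH]) k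
  | succ d ih =>
    intro j hj k hk
    obtain ⟨k, rfl⟩ : ∃ k', k = k' + 1 := ⟨k - 1, by omega⟩
    let J : Fin n := ⟨j, by omega⟩
    have ho : ∀ s : ℝ, IsOpen (Uj x (J + 1) ∪ {y | 0 < s * (y J - x J)}) := fun s =>
      (isOpen_Uj _ _).union (isOpen_lt continuous_const (by fun_prop))
    have e1 : (Uj x (J + 1) ∪ {y | 0 < 1 * (y J - x J)}) ∩
        (Uj x (J + 1) ∪ {y | 0 < -1 * (y J - x J)}) = Uj x (j + 1) := by
      rw [← union_inter_distrib_left]
      refine union_eq_left.2 fun y hy => ?_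
      have h1 : 0 < 1 * (y J - x J) := hy.1
      have h2 : 0 < -1 * (y J - x J) := hy.2
      linarith
    have e2 : (Uj x (J + 1) ∪ {y | 0 < 1 * (y J - x J)}) ∪
        (Uj x (J + 1) ∪ {y | 0 < -1 * (y J - x J)}) = Uj x j := by
      ext y
      constructor
      · have h1 : y ∈ Uj x (J + 1) → y ∈ Uj x j := fun ⟨i, hi, h⟩ =>
          ⟨i, le_trans (Nat.le_succ j) hi, h⟩
        have h2 : ∀ s : ℝ, 0 < s * (y J - x J) → y ∈ Uj x j := fun s hs =>
          ⟨J, le_rfl, fun h => by rw [h, sub_self, mul_zero] at hs; exact lt_irrefl _ hs⟩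
        rintro ((h | h) | (h | h))
        exacts [h1 h, h2 _ h, h1 h, h2 _ h]
      · rintro ⟨i, hi, h⟩
        rcases hi.eq_or_lt with h1 | h1
        · have : i = J := Fin.ext h1.symm
          subst this
          rcases lt_or_gt_of_ne h with h2 | h2
          · exact Or.inr (Or.inr (show 0 < -1 * (y J - x J) by linarith))
          · exact Or.inl (Or.inr (show 0 < 1 * (y J - x J) by linarith))
        · exact Or.inl (Or.inl ⟨i, h1, h⟩)
    rw [← e2]
    refine mv2 (ho 1) (ho (-1)) ?_ (hz_half x J 1 one_ne_zero _)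
      (hz_half x J (-1) (by norm_num) _)
    rw [e1]
    exact ih (j + 1) (by omega) k (by omega)

/-- the local homology of `ℝ^n` vanishes above the degree `n` -/
theorem hz_point (x : Fin n → ℝ) {k : ℕ} (hk : n ≤ k) : HZ R ({x}ᶜ : Set (Fin n → ℝ)) k := by
  have : Uj x 0 = {x}ᶜ := by
    ext y
    simp only [Uj, zero_le, true_and, mem_ofPred_eq, mem_compl_iff, mem_singleton_iff, funext_iff,
      not_forall]
  rw [← this]
  exact hz_Uj x n 0 (zero_add n) k hk

/-- a chain in an open set lies in a compact subset of it -/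
theorem exists_compact {U : Set M} {k : ℕ} {c : C R k M} (hc : c ∈ Cn R U k) :
    ∃ K, IsCompact K ∧ K ⊆ U ∧ c ∈ Cn R K k := by
  rw [Cn, Finsupp.mem_supported] at hc
  refine ⟨⋃ σ ∈ c.support, range σ, c.support.isCompact_biUnion fun σ _ =>
    isCompact_range σ.continuous, iUnion₂_subset fun σ hσ => range_subset_iff.2 (hc hσ), ?_⟩
  rw [Cn, Finsupp.mem_supported]
  exact fun σ hσ x => mem_iUnion₂.2 ⟨σ, hσ, x, rfl⟩

/-- restriction from a bounded convex set to a point is injective -/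
theorem nl_convex {B : Set (Fin n → ℝ)} (hB : Convex ℝ B) (hb : Bornology.IsBounded B)
    {x : Fin n → ℝ} (hx : x ∈ B) {k : ℕ} {c : C R (k + 1) (Fin n → ℝ)}
    (hc : bR k c ∈ Cn R Bᶜ k) (h : Nl {x}ᶜ (k + 1) c) : Nl Bᶜ (k + 1) c := by
  obtain ⟨b, hb'⟩ := h
  obtain ⟨K, hK, hKx, hw⟩ := exists_compact hb'
  obtain ⟨δ, hδ, hδK⟩ : ∃ δ > 0, ∀ y ∈ K, δ ≤ ‖y - x‖ := by
    obtain ⟨δ, hδ, h⟩ := Metric.isOpen_iff.1 hK.isClosed.isOpen_compl x fun h => hKx h rfl
    exact ⟨δ, hδ, fun y hy => not_lt.1 fun hlt => h (mem_ball_iff_norm.2 hlt) hy⟩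
  obtain ⟨r, hr0, hr⟩ := hb.subset_ball_lt 0 x
  let H : C(I × (Fin n → ℝ), Fin n → ℝ) :=
    ⟨fun q => x + (1 + (q.1 : ℝ) * (r / δ)) • (q.2 - x), by fun_prop⟩
  let g : C(Fin n → ℝ, Fin n → ℝ) := ⟨fun y => x + (1 + r / δ) • (y - x), by fun_prop⟩
  have h1 := nl_hom H g (fun y => by simp [H]) (fun y => by simp [H, g]) (U := Bᶜ) (by
    intro t y hy hB'
    apply hy
    have ht := t.2.1
    have hq : 0 ≤ (t : ℝ) * (r / δ) := by positivity
    have hp : 0 < 1 + (t : ℝ) * (r / δ) := by positivity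
    have := hB.add_smul_sub_mem hx hB' (t := (1 + (t : ℝ) * (r / δ))⁻¹)
      ⟨by positivity, inv_le_one_of_one_le₀ (by linarith)⟩
    simpa [H, smul_smul, hp.ne'] using this) hc
  have h2 : Nl Bᶜ (k + 1) (pR g (k + 1) c) := by
    refine ⟨pR g (k + 2) b, ?_⟩
    rw [pR_bR, ← map_sub]
    refine pR_mem (A := K) (fun y hy => ?_) hw
    intro hB'
    have h3 := mem_ball_iff_norm.1 (hr hB')
    have h4 := hδK y hy
    simp only [g, ContinuousMap.coe_mk, add_sub_cancel_left, norm_smul] at h3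
    rw [Real.norm_of_nonneg (by positivity)] at h3
    have h5 : r / δ * δ = r := div_mul_cancel₀ r hδ.ne'
    have h6 : r / δ * δ ≤ r / δ * ‖y - x‖ := mul_le_mul_of_nonneg_left h4 (by positivity)
    have := norm_nonneg (y - x)
    linarith
  have := h1.add h2
  rwa [sub_add_cancel] at this

end Euc

end Vale.Agent.P223W25

end
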